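import Vale.Agent.N296.Main

/-!
# P296: ample vector bundles without semipositive, almost semipositive or singular semipositive
metrics, in all dimensions and ranks at least two
-/

open Vale.Agent.P296Z Vale.Agent.N296

theorem Vale.Agent.Results.P296.A0Semipositive.result :
    ∀ n r : ℕ, 2 ≤ n → 2 ≤ r → ¬ WeakGriffiths n r :=
  fun n r hn hr => (main.2 n r hn hr).2
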